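import Mathlib

/-!
P057 (sets with divergent reciprocal sum and arithmetic progressions).

For every `k ≥ 3`: every set of positive integers with divergent sum of reciprocals contains a
`k`-term arithmetic progression if and only if the series `∑ r_k(2^n) / 2^n` converges, where
`r_k(N)` is the largest size of a subset of `{1, ..., N}` without a `k`-term progression.
-/

open Finset

namespace Vale.Agent.Results.P057.A_DyadicSeriesCriterion

/-- `A` contains a `k`-term arithmetic progression `a, a+d, ..., a+(k-1)d` with `d > 0`. -/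
def HasAP (k : ℕ) (A : Set ℕ) : Prop :=
  ∃ a d : ℕ, 0 < d ∧ ∀ i < k, a + i * d ∈ A

/-- `rk k N` is the largest cardinality of a subset of `{1, ..., N}` that contains no
`k`-term arithmetic progression. -/
noncomputable def rk (k N : ℕ) : ℕ :=
  sSup {c | ∃ S : Finset ℕ, S ⊆ Finset.Icc 1 N ∧ ¬ HasAP k (S : Set ℕ) ∧ S.card = c}

lemma HasAP.mono {k : ℕ} {A B : Set ℕ} (h : A ⊆ B) (hA : HasAP k A) : HasAP k B := by
  obtain ⟨a, d, hd, ha⟩ := hA
  exact ⟨a, d, hd, fun i hi => h (ha i hi)⟩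

lemma rk_set_bdd (k N : ℕ) :
    BddAbove {c | ∃ S : Finset ℕ, S ⊆ Finset.Icc 1 N ∧ ¬ HasAP k (S : Set ℕ) ∧ S.card = c} := by
  refine ⟨N, ?_⟩
  rintro c ⟨S, hS, -, rfl⟩
  simpa using Finset.card_le_card hS

lemma card_le_rk {k N : ℕ} {S : Finset ℕ} (hS : S ⊆ Finset.Icc 1 N)
    (hfree : ¬ HasAP k (S : Set ℕ)) : S.card ≤ rk k N :=
  le_csSup (rk_set_bdd k N) ⟨S, hS, hfree, rfl⟩

lemma exists_rk (k N : ℕ) (hk : 1 ≤ k) :
    ∃ S : Finset ℕ, S ⊆ Finset.Icc 1 N ∧ ¬ HasAP k (S : Set ℕ) ∧ S.card = rk k N := by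
  have hne : {c | ∃ S : Finset ℕ, S ⊆ Finset.Icc 1 N ∧ ¬ HasAP k (S : Set ℕ) ∧
      S.card = c}.Nonempty := by
    refine ⟨0, ∅, by simp, ?_, by simp⟩
    rintro ⟨a, d, hd, h⟩
    have := h 0 (by omega)
    simp at this
  exact Nat.sSup_mem hne (rk_set_bdd k N)

lemma card_le_rk_shift {k N M : ℕ} {T : Finset ℕ} (hT : ∀ t ∈ T, M < t ∧ t ≤ M + N)
    (hfree : ¬ HasAP k (T : Set ℕ)) : T.card ≤ rk k N := by
  have hinj : Set.InjOn (fun t => t - M) (T : Set ℕ) := by
    intro x hx y hy hxy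
    have h1 := (hT x hx).1
    have h2 := (hT y hy).1
    simp only at hxy
    omega
  rw [← Finset.card_image_of_injOn hinj]
  apply card_le_rk
  · intro u hu
    obtain ⟨t, ht, rfl⟩ := Finset.mem_image.mp hu
    have := hT t ht
    simp only [Finset.mem_Icc]
    omega
  · rintro ⟨a, d, hd, h⟩
    apply hfree
    refine ⟨a + M, d, hd, fun i hi => ?_⟩
    have h3 := h i hi
    rw [Finset.mem_coe, Finset.mem_image] at h3
    obtain ⟨t, ht, hte⟩ := h3
    have h1 := (hT t ht).1
    have h4 : a + M + i * d = t := by omega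
    rw [h4]
    exact ht

lemma rk_mono (k : ℕ) (hk : 1 ≤ k) {N N' : ℕ} (h : N ≤ N') : rk k N ≤ rk k N' := by
  obtain ⟨S, hS, hfree, hcard⟩ := exists_rk k N hk
  rw [← hcard]
  exact card_le_rk (hS.trans (Finset.Icc_subset_Icc_right h)) hfree

/-- Convergence of the dyadic series forces progression-free sets to have convergent
reciprocal sums. -/
lemma summable_of_series {k : ℕ}
    (hs : Summable (fun n : ℕ => (rk k (2 ^ n) : ℝ) / 2 ^ n)) (A : Set ℕ)
    (hA : ¬ HasAP k A) : Summable (fun a : A => (1 : ℝ) / ((a : ℕ) : ℝ)) := by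
  classical
  have hnn : ∀ n : ℕ, 0 ≤ (rk k (2 ^ n) : ℝ) / 2 ^ n := fun n => by positivity
  have hgnn : ∀ a : ℕ, 0 ≤ Set.indicator A (fun a : ℕ => (1 : ℝ) / (a : ℝ)) a :=
    fun a => Set.indicator_nonneg (fun _ _ => by positivity) a
  have hblock : ∀ M : ℕ, ∑ a ∈ Finset.Ico (2 ^ M) (2 ^ (M + 1)),
      Set.indicator A (fun a : ℕ => (1 : ℝ) / (a : ℝ)) a ≤ (rk k (2 ^ M) : ℝ) / 2 ^ M := by
    intro M
    have h2pos : 0 < 2 ^ M := by positivity
    simp only [Set.indicator_apply]
    rw [← Finset.sum_filter]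
    have hT : ∀ t ∈ (Finset.Ico (2 ^ M) (2 ^ (M + 1))).filter (· ∈ A),
        2 ^ M - 1 < t ∧ t ≤ 2 ^ M - 1 + 2 ^ M := by
      intro t ht
      rw [Finset.mem_filter, Finset.mem_Ico, pow_succ] at ht
      omega
    have hfree : ¬ HasAP k (((Finset.Ico (2 ^ M) (2 ^ (M + 1))).filter (· ∈ A) : Finset ℕ) :
        Set ℕ) := by
      intro h
      apply hA
      refine h.mono ?_
      intro x hx
      rw [Finset.mem_coe, Finset.mem_filter] at hx
      exact hx.2
    have hcard := card_le_rk_shift hT hfree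
    calc ∑ a ∈ (Finset.Ico (2 ^ M) (2 ^ (M + 1))).filter (· ∈ A), (1 : ℝ) / (a : ℝ)
        ≤ ∑ _a ∈ (Finset.Ico (2 ^ M) (2 ^ (M + 1))).filter (· ∈ A), (1 : ℝ) / 2 ^ M := by
          refine Finset.sum_le_sum fun a ha => ?_
          rw [Finset.mem_filter, Finset.mem_Ico] at ha
          have h1 : ((2 : ℝ) ^ M) ≤ (a : ℝ) := by exact_mod_cast ha.1.1
          exact one_div_le_one_div_of_le (by positivity) h1
      _ = (((Finset.Ico (2 ^ M) (2 ^ (M + 1))).filter (· ∈ A)).card : ℝ) / 2 ^ M := by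
          rw [Finset.sum_const, nsmul_eq_mul]
          ring
      _ ≤ (rk k (2 ^ M) : ℝ) / 2 ^ M := by
          have : ((((Finset.Ico (2 ^ M) (2 ^ (M + 1))).filter (· ∈ A)).card : ℕ) : ℝ)
              ≤ (rk k (2 ^ M) : ℝ) := by exact_mod_cast hcard
          exact div_le_div_of_nonneg_right this (by positivity)
  have hdy : ∀ M : ℕ, ∑ a ∈ Finset.range (2 ^ M),
      Set.indicator A (fun a : ℕ => (1 : ℝ) / (a : ℝ)) a
        ≤ ∑ n ∈ Finset.range M, (rk k (2 ^ n) : ℝ) / 2 ^ n := by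
    intro M
    induction M with
    | zero =>
      simp [Set.indicator_apply]
    | succ M ih =>
      have hle : 2 ^ M ≤ 2 ^ (M + 1) := Nat.pow_le_pow_right (by norm_num) (by omega)
      rw [← Finset.sum_range_add_sum_Ico _ hle, Finset.sum_range_succ]
      exact add_le_add ih (hblock M)
  have hind : Summable (Set.indicator A (fun a : ℕ => (1 : ℝ) / (a : ℝ))) := by
    refine summable_of_sum_range_le (c := ∑' n, (rk k (2 ^ n) : ℝ) / 2 ^ n) hgnn ?_
    intro m
    have hsub : Finset.range m ⊆ Finset.range (2 ^ m) := by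
      intro x hx
      rw [Finset.mem_range] at hx ⊢
      exact hx.trans Nat.lt_two_pow_self
    calc ∑ a ∈ Finset.range m, Set.indicator A (fun a : ℕ => (1 : ℝ) / (a : ℝ)) a
        ≤ ∑ a ∈ Finset.range (2 ^ m), Set.indicator A (fun a : ℕ => (1 : ℝ) / (a : ℝ)) a :=
          Finset.sum_le_sum_of_subset_of_nonneg hsub (fun a _ _ => hgnn a)
      _ ≤ ∑ n ∈ Finset.range m, (rk k (2 ^ n) : ℝ) / 2 ^ n := hdy m
      _ ≤ ∑' n, (rk k (2 ^ n) : ℝ) / 2 ^ n := hs.sum_le_tsum _ (fun n _ => hnn n)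
  exact summable_subtype_iff_indicator.mpr hind

/-- Three consecutive terms of a progression that lie in the blocks `(4·4^n, 6·4^n]` lie in
the same block. -/
lemma triple_block {x d l p r : ℕ} (hd : 0 < d)
    (hx : 4 * 4 ^ l < x ∧ x ≤ 6 * 4 ^ l)
    (hy : 4 * 4 ^ p < x + d ∧ x + d ≤ 6 * 4 ^ p)
    (hz : 4 * 4 ^ r < x + 2 * d ∧ x + 2 * d ≤ 6 * 4 ^ r) : l = p ∧ r = p := by
  have hpow : ∀ {u v : ℕ}, u < v → 4 * 4 ^ u ≤ 4 ^ v := by
    intro u v huv
    have : 4 ^ (u + 1) ≤ 4 ^ v := Nat.pow_le_pow_right (by norm_num) huv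
    rw [pow_succ] at this
    omega
  have hr : r = p := by
    rcases Nat.lt_trichotomy r p with h | h | h
    · have := hpow h
      omega
    · exact h
    · have := hpow h
      omega
  subst hr
  refine ⟨?_, rfl⟩
  rcases Nat.lt_trichotomy l r with h | h | h
  · have := hpow h
    omega
  · exact h
  · have := hpow h
    omega

lemma exists_set_of_not_summable {k : ℕ} (hk : 3 ≤ k)
    (hs : ¬ Summable (fun n : ℕ => (rk k (2 ^ n) : ℝ) / 2 ^ n)) :
    ∃ A : Set ℕ, (∀ a ∈ A, 0 < a) ∧ ¬ Summable (fun a : A => (1 : ℝ) / ((a : ℕ) : ℝ)) ∧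
      ¬ HasAP k A := by
  classical
  have hk1 : 1 ≤ k := by omega
  choose S hSsub hSfree hScard using fun n : ℕ => exists_rk k (2 * 4 ^ n) hk1
  have hblock : ∀ n s, s ∈ S n → 4 * 4 ^ n < 4 * 4 ^ n + s ∧ 4 * 4 ^ n + s ≤ 6 * 4 ^ n := by
    intro n s hs'
    have := hSsub n hs'
    rw [Finset.mem_Icc] at this
    omega
  have hpow : ∀ {u v : ℕ}, u < v → 4 * 4 ^ u ≤ 4 ^ v := by
    intro u v huv
    have : 4 ^ (u + 1) ≤ 4 ^ v := Nat.pow_le_pow_right (by norm_num) huv
    rw [pow_succ] at this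
    omega
  refine ⟨{x | ∃ n, ∃ s ∈ S n, x = 4 * 4 ^ n + s}, ?_, ?_, ?_⟩
  · rintro a ⟨n, s, hs', rfl⟩
    have := hblock n s hs'
    omega
  · intro hsum
    apply hs
    -- the injection of the disjoint blocks into the set
    let ι : (Σ n : ℕ, {s // s ∈ S n}) → {x | ∃ n, ∃ s ∈ S n, x = 4 * 4 ^ n + s} :=
      fun q => ⟨4 * 4 ^ q.1 + q.2.1, ⟨q.1, q.2.1, q.2.2, rfl⟩⟩
    have hι : Function.Injective ι := by
      rintro ⟨n, s, hs1⟩ ⟨m, t, ht1⟩ h
      have h' : 4 * 4 ^ n + s = 4 * 4 ^ m + t := congrArg Subtype.val h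
      have b1 := hblock n s hs1
      have b2 := hblock m t ht1
      have hnm : n = m := by
        rcases Nat.lt_trichotomy n m with h1 | h1 | h1
        · have := hpow h1
          omega
        · exact h1
        · have := hpow h1
          omega
      subst hnm
      have hst : s = t := by omega
      subst hst
      rfl
    have h1 := hsum.comp_injective hι
    have h2 := h1.sigma
    have h3 : Summable (fun n : ℕ => (rk k (2 * 4 ^ n) : ℝ) / (6 * 4 ^ n)) := by
      refine Summable.of_nonneg_of_le (fun n => by positivity) (fun n => ?_) h2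
      rw [tsum_fintype]
      have hsum_eq : ∑ c : {s // s ∈ S n},
          ((fun a : {x | ∃ n, ∃ s ∈ S n, x = 4 * 4 ^ n + s} => (1 : ℝ) / ((a : ℕ) : ℝ)) ∘ ι)
            ⟨n, c⟩ = ∑ s ∈ S n, (1 : ℝ) / ((4 * 4 ^ n + s : ℕ) : ℝ) := by
        rw [← Finset.sum_coe_sort (S n) (fun s => (1 : ℝ) / ((4 * 4 ^ n + s : ℕ) : ℝ))]
        rfl
      rw [hsum_eq]
      calc (rk k (2 * 4 ^ n) : ℝ) / (6 * 4 ^ n)
          = ∑ _s ∈ S n, (1 : ℝ) / (6 * 4 ^ n) := by
            rw [Finset.sum_const, nsmul_eq_mul, hScard n]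
            ring
        _ ≤ ∑ s ∈ S n, (1 : ℝ) / ((4 * 4 ^ n + s : ℕ) : ℝ) := by
            refine Finset.sum_le_sum fun s hs' => ?_
            have b := hblock n s hs'
            have hpos : (0 : ℝ) < ((4 * 4 ^ n + s : ℕ) : ℝ) := by
              exact_mod_cast (by omega : 0 < 4 * 4 ^ n + s)
            have hle : ((4 * 4 ^ n + s : ℕ) : ℝ) ≤ 6 * 4 ^ n := by exact_mod_cast b.2
            exact one_div_le_one_div_of_le hpos hle
    have hodd : Summable (fun n : ℕ => (rk k (2 ^ (2 * n + 1)) : ℝ) / 2 ^ (2 * n + 1)) := by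
      have := h3.mul_left 3
      refine this.congr fun n => ?_
      have e1 : (2 : ℕ) ^ (2 * n + 1) = 2 * 4 ^ n := by
        rw [pow_succ, pow_mul]
        norm_num
        ring
      have e2 : (2 : ℝ) ^ (2 * n + 1) = 2 * 4 ^ n := by
        rw [pow_succ, pow_mul]
        norm_num
        ring
      rw [e1, e2]
      field_simp
      ring
    have heven : Summable (fun n : ℕ => (rk k (2 ^ (2 * n)) : ℝ) / 2 ^ (2 * n)) := by
      have := h3.mul_left 6
      refine Summable.of_nonneg_of_le (fun n => by positivity) (fun n => ?_) this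
      have e1 : (2 : ℕ) ^ (2 * n) = 4 ^ n := by
        rw [pow_mul]
        norm_num
      have e2 : (2 : ℝ) ^ (2 * n) = 4 ^ n := by
        rw [pow_mul]
        norm_num
      rw [e1, e2]
      have hmono : (rk k (4 ^ n) : ℝ) ≤ (rk k (2 * 4 ^ n) : ℝ) := by
        exact_mod_cast rk_mono k hk1 (by omega : 4 ^ n ≤ 2 * 4 ^ n)
      have h4 : (0 : ℝ) < 4 ^ n := by positivity
      calc (rk k (4 ^ n) : ℝ) / 4 ^ n ≤ (rk k (2 * 4 ^ n) : ℝ) / 4 ^ n :=
            div_le_div_of_nonneg_right hmono h4.le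
        _ = 6 * ((rk k (2 * 4 ^ n) : ℝ) / (6 * 4 ^ n)) := by
            field_simp
    exact Summable.even_add_odd heven hodd
  · rintro ⟨a, d, hd, h⟩
    have h' : ∀ i : ℕ, ∃ n s, i < k → (s ∈ S n ∧ a + i * d = 4 * 4 ^ n + s) := by
      intro i
      by_cases hi : i < k
      · obtain ⟨n, s, hs', hx⟩ := h i hi
        exact ⟨n, s, fun _ => ⟨hs', hx⟩⟩
      · exact ⟨0, 0, fun hi' => absurd hi' hi⟩
    choose n s hns using h'
    have hstep : ∀ i, i + 1 < k → n (i + 1) = n i := by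
      intro i hi
      by_cases hi2 : i + 2 < k
      · obtain ⟨m1, e1⟩ := hns i (by omega)
        obtain ⟨m2, e2⟩ := hns (i + 1) (by omega)
        obtain ⟨m3, e3⟩ := hns (i + 2) (by omega)
        have b1 := hblock _ _ m1
        have b2 := hblock _ _ m2
        have b3 := hblock _ _ m3
        rw [← e1] at b1
        rw [← e2] at b2
        rw [← e3] at b3
        have hy : a + (i + 1) * d = (a + i * d) + d := by ring
        have hz : a + (i + 2) * d = (a + i * d) + 2 * d := by ring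
        rw [hy] at b2
        rw [hz] at b3
        exact (triple_block hd b1 b2 b3).1.symm
      · obtain ⟨j, rfl⟩ : ∃ j, i = j + 1 := ⟨i - 1, by omega⟩
        obtain ⟨m1, e1⟩ := hns j (by omega)
        obtain ⟨m2, e2⟩ := hns (j + 1) (by omega)
        obtain ⟨m3, e3⟩ := hns (j + 1 + 1) (by omega)
        have b1 := hblock _ _ m1
        have b2 := hblock _ _ m2
        have b3 := hblock _ _ m3
        rw [← e1] at b1
        rw [← e2] at b2
        rw [← e3] at b3
        have hy : a + (j + 1) * d = (a + j * d) + d := by ring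
        have hz : a + (j + 1 + 1) * d = (a + j * d) + 2 * d := by ring
        rw [hy] at b2
        rw [hz] at b3
        exact (triple_block hd b1 b2 b3).2
    have hall : ∀ i, i < k → n i = n 0 := by
      intro i
      induction i with
      | zero => intro _; rfl
      | succ i ih =>
        intro hi
        rw [hstep i hi]
        exact ih (by omega)
    apply hSfree (n 0)
    refine ⟨s 0, d, hd, fun i hi => ?_⟩
    obtain ⟨m0, e0⟩ := hns 0 (by omega)
    obtain ⟨mi, ei⟩ := hns i hi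
    rw [hall i hi] at mi ei
    have : s 0 + i * d = s i := by
      simp only [zero_mul, add_zero] at e0
      omega
    rw [this]
    exact mi

/-- For every `k ≥ 3`: every set of positive integers whose reciprocals have divergent sum
contains a `k`-term arithmetic progression if and only if `∑ r_k(2^n) / 2^n` converges. -/
theorem result (k : ℕ) (hk : 3 ≤ k) :
    (∀ A : Set ℕ, (∀ a ∈ A, 0 < a) →
        ¬ Summable (fun a : A => (1 : ℝ) / ((a : ℕ) : ℝ)) → HasAP k A) ↔
      Summable (fun n : ℕ => (rk k (2 ^ n) : ℝ) / 2 ^ n) := by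
  constructor
  · intro h
    by_contra hs
    obtain ⟨A, hpos, hns, hfree⟩ := exists_set_of_not_summable hk hs
    exact hfree (h A hpos hns)
  · intro hs A _ hns
    by_contra hfree
    exact hns (summable_of_series hs A hfree)

end Vale.Agent.Results.P057.A_DyadicSeriesCriterion
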